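import Vale.Agent.P281.H152.SC.Core

/-!
# P281, class C (helper152): the generic assembly for families with any periods
-/

open Set Filter Metric MeasureTheory Vale.Agent.P281 Vale.Agent.P281.H713
open Vale.Agent.P272.K (Chart IsKahler IsHermitian)
open Vale.Agent.P281.MF Vale.Agent.P281.ISO
open Vale.Agent.P281.H713.TZ Vale.Agent.P281.H64
open Vale.Agent.P281.H64.Gen
open Vale.Agent.P281.H64.Thin (IsThinSet)
open Vale.Agent.P281.H383.C (CTameOKStmt mctx mctx_ok exists_good)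
open Vale.Agent.P281.H64.TK (GenNStmt)
open Vale.Agent.P281.H64.TK.TS (hasFormsT_of)
open Vale.Agent.P281.H603.C (CTame)
open scoped Topology ContDiff Manifold

set_option linter.all false

noncomputable section

namespace Vale.Agent.P281.H152.SC

/-- canonical forms on the fibres of `f` over `Y ∖ S`, controlled by periods (of tori and of K3
type), with the bound of the integrals on all open sets; the map given by the forms has rank `r` -/
def HasPerG (p d r : ℕ) {Z Y : Type} [TopologicalSpace Z] [ChartedSpace (Cm (p + d)) Z]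
    [TopologicalSpace Y] [ChartedSpace (Cm p) Y] (f : Z → Y) (S : Set Y) : Prop :=
  ∃ (V : Type) (_ : NormedAddCommGroup V) (_ : InnerProductSpace ℂ V) (_ : FiniteDimensional ℂ V)
    (n m b t M s : ℕ) (Q : (Fin n → ℝ) → (Fin n → ℝ) → ℝ) (B : Fin b → Matrix (Fin m) (Fin m) ℝ)
    (v : Fin b → Fin m → ℝ) (e : Fin b → ℕ) (ι : Type) (U : ι → Set Y)
    (π : ι → Y → ((Fin n → ℝ) ≃L[ℝ] V)) (P : ι → Y → Fin b → Fin m → ℂ)
    (η : ι → Fin t → Z → (Fin d → Cm (p + d)) → ℂ), 0 < M ∧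
    IsPeriodForms (Cm (p + d)) (Cm p) f S r M (fun _ => 0) Q s B v e U π P η ∧
    H225.KC.NormO (E := Cm (p + d)) (E' := Cm p) f M Q s B e U π P η

/-- the first inequality, from the forms of the model, `r = 0` -/
theorem firstG (har : HartogsStmt) (exc : ExcStmt) (lift : TU.LiftTStmt) (tame : CTameOKStmt)
    {p d : ℕ} {X Y X₁ : Type} [TopologicalSpace X] [T2Space X]
    [ChartedSpace (Cm (p + d)) X] [IsManifold 𝓘(ℂ, Cm (p + d)) ω X] [TopologicalSpace Y]
    [T2Space Y] [ChartedSpace (Cm p) Y] [IsManifold 𝓘(ℂ, Cm p) ω Y] [TopologicalSpace X₁]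
    [T2Space X₁] [CompactSpace X₁] [ChartedSpace (Cm (p + d)) X₁]
    [IsManifold 𝓘(ℂ, Cm (p + d)) ω X₁] {f : X → Y} {Δ : Set X → ℝ}
    (h : H511.Surf.IsFibration (Cm (p + d)) (Cm p) f Δ) {u : X₁ → X}
    (hu : TZ.S.IsModif (Cm (p + d)) u)
    {w : Chart (p + d) X₁ → Cm (p + d) → Matrix (Fin (p + d)) (Fin (p + d)) ℂ} (hw : IsKahler w)
    {S : Set Y} (hS : IsSmallSet (Cm p) S)
    (hP : IsProperFibration (n := p + d) (p := p) f S)
    (hP₁ : IsProperFibration (n := p + d) (p := p) (fun z => f (u z)) S)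
    (hH : HasPerG p d 0 (fun z => f (u z)) S) :
    TZ.S.kodF (p + d) p Δ (id : X → X) f ≤ TZ.S.kodX (Cm (p + d)) Δ := by
  classical
  have : CompactSpace X := h.compact
  have : ConnectedSpace X := h.connected
  obtain ⟨V, iV1, iV2, iV3, n, m, b, t, M, s, Q, B, v, e, ι, U, π, P, η, hM, hC, hN⟩ := hH
  have hMod := H349.NF.mod_modif exc hu
  have hexc := exc (p + d) X X₁ u hu
  have hf : ∀ x, HolM (Cm (p + d)) (Cm p) f x := fun x => h.hol x
  let e₀ : Cm (p + d) ≃L[ℂ] (Cm p × Cm d) := ContinuousLinearEquiv.ofFinrankEq (by simp)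
  have hchart : ∀ x, f x ∉ S → ∃ ζ : Fin d → X → ℂ,
      IsFibreChart (Cm (p + d)) (Cm p) f ζ x := fun x hx => exists_fc e₀ (hP.submersive x hx)
  have hΔ0 : ∀ D, 0 ≤ Δ D := fun D => (snc01 (JB.snc h.snc) D).1
  obtain ⟨η', hC'⟩ := H225.KC.desc hM hf hMod (fun O g hO hg => har _ X _ O g hexc hO hg) hchart
    (fun q v₀ r hq hqS => null_slice0 hf (fun z => hMod.hol z) e₀ hchart hC.chart q v₀ r hq hqS)
    (fun y hy => (hP₁.connected y hy).isPreconnected) hC hN
  have h1 : (((0 : ℕ) : ℕ∞) : WithBot ℕ∞) + TZ.S.kodF (p + d) p Δ (id : X → X) f ≤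
      TZ.S.kodX (Cm (p + d)) Δ := by
    refine H303.UF.first_of fun j₂ h₂ => ?_
    refine lift (p + d) p X Y (Cm d) (CTame u w) f S e₀ Δ 0 j₂
      (tame (p + d) d X X₁ u w hu.2.1 hw.toIsHermitian) h.hol hS hP.submersive h.snc
      (fun y hy => hasFormsT_of ?_) h₂
    refine hasForms_periods hC' hf e₀ hM ?_ ?_ ?_ hy
    · simp
    · intro D hD
      exact absurd rfl hD
    · intro D
      simpa using mul_nonneg (Nat.cast_nonneg M) (hΔ0 D)
  simpa using h1

/-- the generic assembly, `r = 0` -/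
theorem mainG (gen : GenNStmt) (exc : ExcStmt) (crit : CritStmt) (compl : ComplStmt)
    (har : HartogsStmt) (lift : TU.LiftTStmt) (tame : CTameOKStmt) {p d : ℕ} {X Y X₁ : Type}
    [TopologicalSpace X] [ChartedSpace (Cm (p + d)) X] [TopologicalSpace Y]
    [ChartedSpace (Cm p) Y] [TopologicalSpace X₁] [ChartedSpace (Cm (p + d)) X₁] {f : X → Y}
    {Δ : Set X → ℝ} (h : H511.Surf.IsFibration (Cm (p + d)) (Cm p) f Δ) {u : X₁ → X}
    (hu : TZ.S.IsModif (Cm (p + d)) u)
    {w : Chart (p + d) X₁ → Cm (p + d) → Matrix (Fin (p + d)) (Fin (p + d)) ℂ} (hw : IsKahler w) :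
    ∃ (S : Set Y) (H : ℕ → Set Y), IsSmallSet (Cm p) S ∧ IsPreconnected Sᶜ ∧
      IsProperFibration (n := p + d) (p := p) f S ∧
      IsProperFibration (n := p + d) (p := p) (fun z => f (u z)) S ∧
      (∀ k, IsThinSet (Cm p) (H k)) ∧
      (∀ y, (∀ k, y ∉ H k) → y ∉ S ∧ ∀ (F : Type) [TopologicalSpace F] [ChartedSpace (Cm d) F]
        (i : F → X), H511.Surf.IsFibre (Cm (p + d)) (Cm d) f y i →
        TK.TE.IsSquareE (p + d) p d f (fun z => f (u z)) u (id : Y → Y) S S y y i) ∧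
      (HasPerG p d 0 (fun z => f (u z)) S →
        TZ.S.kodF (p + d) p Δ (id : X → X) f ≤ TZ.S.kodX (Cm (p + d)) Δ) := by
  classical
  have : T2Space X := h.hausdorff.1
  have : T2Space Y := h.hausdorff.2
  have : T2Space X₁ := hu.1.2.1
  have : CompactSpace X := h.compact
  have : ConnectedSpace X := h.connected
  have : IsManifold 𝓘(ℂ, Cm (p + d)) ω X := h.manifold.1
  have : IsManifold 𝓘(ℂ, Cm p) ω Y := h.manifold.2
  have : IsManifold 𝓘(ℂ, Cm (p + d)) ω X₁ := hu.1.2.2.2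
  have : CompactSpace X₁ := by
    have h1 := hu.2.2.1.isCompact_preimage (isCompact_univ (X := X))
    rw [preimage_univ] at h1
    exact ⟨h1⟩
  have hsurj : Function.Surjective f := fun y => (h.fibres y).nonempty
  have : PreconnectedSpace Y := by
    rw [preconnectedSpace_iff_univ, ← hsurj.range_eq]
    exact isPreconnected_range h.hol.continuous
  obtain ⟨S, hS, hP, hgood⟩ := exists_good (w := w) crit compl har exc h hu
  have hP₀ := hP S subset_rfl hS.1
  have hP₁ : IsProperFibration (n := p + d) (p := p) (fun z => f (u z)) S :=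
    (hgood S subset_rfl hS).prop₁
  obtain ⟨H₁, hH₁, hsub₁⟩ := hS.2
  obtain ⟨H₂, hH₂, hmain₂⟩ := gen p d X Y f (u '' excSet (Cm (p + d)) u) h.hol
    (exc (p + d) X X₁ u hu)
  obtain ⟨L, hL, hLy⟩ := H349.NF.thin_two hH₂ hH₁
  refine ⟨S, L, hS, (compl p Y S hS).2, hP₀, hP₁, hL, fun y hy => ?_,
    fun hH => firstG har exc lift tame h hu hw hS hP₀ hP₁ hH⟩
  obtain ⟨hy₂, hy₁⟩ := hLy y hy
  have hyS : y ∉ S := by
    intro hyS
    obtain ⟨k, hk⟩ := mem_iUnion.1 (hsub₁ hyS)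
    exact hy₁ k hk
  exact ⟨hyS, fun F _ _ i hi => ⟨hu, fun _ => rfl, h.hol, h.hol.comp hu.2.1, hP₀, hP₁, hyS, hyS,
    preimage_id, hi, hmain₂ y hy₂ F i hi⟩⟩

end Vale.Agent.P281.H152.SC
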