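import Vale.Agent.P281.H152.SC.Good

/-!
# P281, T-SC (helper152), part 3: descent of `IsPeriodForms` along a modification
-/

open Set Filter Metric MeasureTheory
open scoped Topology ContDiff Manifold ENNReal NNReal

set_option linter.unusedSectionVars false

noncomputable section

namespace Vale.Agent.P281.H152.SC

open Vale.Agent.P281 Vale.Agent.P281.MF Vale.Agent.P281.ISO Vale.Agent.P281.ELL
open Vale.Agent.P281.H713 Vale.Agent.P281.H64.Gen Vale.Agent.P281.H603.KodN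

/-- the bound `norm` for the pull-back by injective maps of all open sets -/
def NormP {E : Type} [NormedAddCommGroup E] [NormedSpace ℂ E] {n m d b t : ℕ} {X Y : Type}
    [TopologicalSpace X] [ChartedSpace E X]
    {V : Type} [NormedAddCommGroup V] [InnerProductSpace ℂ V] [FiniteDimensional ℂ V]
    (f : X → Y) (N : ℕ) (Q : (Fin n → ℝ) → (Fin n → ℝ) → ℝ) (s : ℕ)
    (B : Fin b → Matrix (Fin m) (Fin m) ℝ) (e : Fin b → ℕ) {ι : Type} (U : ι → Set Y)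
    (π : ι → Y → ((Fin n → ℝ) ≃L[ℝ] V)) (p : ι → Y → Fin b → Fin m → ℂ)
    (η : ι → Fin t → X → (Fin d → E) → ℂ) : Prop :=
  ∃ A : ℝ, ∀ a i, ∀ y ∈ U a, ∀ (D : Set (Fin d → ℂ)) (q : (Fin d → ℂ) → X), IsOpen D →
    (∀ v ∈ D, ContMDiffAt 𝓘(ℂ, Fin d → ℂ) 𝓘(ℂ, E) ω q v) → InjOn q D → (∀ v ∈ D, f (q v) = y) →
    ∀ G : V ≃L[ℂ] V, (∀ x x', (inner ℂ (G (π a y x)) (G (π a y x'))).im = Q x x') →
      (∫⁻ v in D, ‖pull E (η a i) q v‖ₑ ^ (2 / (N : ℝ))) ^ N *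
        ‖(G : V →L[ℂ] V).det‖ₑ ^ (2 * s) ≤ ENNReal.ofReal (A * periodNorm B e (p a y))

/-- the forms are nonzero at points of the fibres which are not exceptional -/
def RankP {E E' : Type} [NormedAddCommGroup E] [NormedSpace ℂ E] [NormedAddCommGroup E']
    [NormedSpace ℂ E'] {d t : ℕ} {X Y : Type} [TopologicalSpace X] [ChartedSpace E X]
    [TopologicalSpace Y] [ChartedSpace E' Y] (f : X → Y) (Ex : Set X) {ι : Type} (U : ι → Set Y)
    (η : ι → Fin t → X → (Fin d → E) → ℂ) : Prop :=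
  ∀ a, ∀ y ∈ U a, ∃ x, f x = y ∧ x ∉ Ex ∧ ∃ i ξ, IsVertical E E' f x ξ ∧ η a i x ξ ≠ 0

section push

variable {n p d : ℕ} {X X₁ Y : Type} [TopologicalSpace X] [T2Space X] [ChartedSpace (Fin n → ℂ) X]
  [IsManifold 𝓘(ℂ, Fin n → ℂ) ω X] [TopologicalSpace X₁] [ChartedSpace (Fin n → ℂ) X₁]
  [IsManifold 𝓘(ℂ, Fin n → ℂ) ω X₁]
  [TopologicalSpace Y] [ChartedSpace (Fin p → ℂ) Y] [IsManifold 𝓘(ℂ, Fin p → ℂ) ω Y] {f : X → Y}
  {u : X₁ → X} (hM : Mod0 (n := n) u)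

/-- `u_* η` -/
def push (η : X₁ → (Fin d → (Fin n → ℂ)) → ℂ) (x : X) (ξ : Fin d → (Fin n → ℂ)) : ℂ :=
  η (inv0 hM x) fun l => dM (Fin n → ℂ) (Fin n → ℂ) (inv0 hM) x (ξ l)

theorem holM_f1 (hf : ∀ x, HolM (Fin n → ℂ) (Fin p → ℂ) f x) (hM : Mod0 (n := n) u) (z : X₁) :
    HolM (Fin n → ℂ) (Fin p → ℂ) (fun x => f (u x)) z :=
  ContMDiffAt.comp z (g := f) (f := u) (hf _) (hM.hol z)

theorem dM_f1 (hf : ∀ x, HolM (Fin n → ℂ) (Fin p → ℂ) f x) (hM : Mod0 (n := n) u) (z : X₁)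
    (ξ : Fin n → ℂ) : dM (Fin n → ℂ) (Fin p → ℂ) (fun x => f (u x)) z ξ =
      dM (Fin n → ℂ) (Fin p → ℂ) f (u z) (dM (Fin n → ℂ) (Fin n → ℂ) u z ξ) :=
  mfderiv_comp_apply z (g := f) (f := u) ((hf _).mdifferentiableAt (by simp))
    ((hM.hol _).mdifferentiableAt (by simp)) ξ

/-- vertical vectors off `N` -/
theorem dM_f1_inv (hf : ∀ x, HolM (Fin n → ℂ) (Fin p → ℂ) f x) {x : X}
    (hx : x ∉ u '' excSet (Fin n → ℂ) u) (ξ : Fin n → ℂ) :
    dM (Fin n → ℂ) (Fin p → ℂ) (fun x => f (u x)) (inv0 hM x)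
      (dM (Fin n → ℂ) (Fin n → ℂ) (inv0 hM) x ξ) = dM (Fin n → ℂ) (Fin p → ℂ) f x ξ := by
  rw [dM_f1 hf hM, dM_u_inv hM hx, u_inv0 hM]

theorem vert_inv (hf : ∀ x, HolM (Fin n → ℂ) (Fin p → ℂ) f x) {x : X}
    (hx : x ∉ u '' excSet (Fin n → ℂ) u) {ξ : Fin d → (Fin n → ℂ)}
    (hξ : IsVertical (Fin n → ℂ) (Fin p → ℂ) f x ξ) :
    IsVertical (Fin n → ℂ) (Fin p → ℂ) (fun x => f (u x)) (inv0 hM x)
      (fun l => dM (Fin n → ℂ) (Fin n → ℂ) (inv0 hM) x (ξ l)) := fun l => by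
  have h1 := dM_f1_inv hM hf hx (ξ l)
  have h2 : dM (Fin n → ℂ) (Fin p → ℂ) f x (ξ l) = 0 := hξ l
  rw [h2] at h1
  exact h1

/-- `d (g ∘ u⁻¹) = dg ∘ d(u⁻¹)` -/
theorem dif_inv {x : X} (hx : x ∉ u '' excSet (Fin n → ℂ) u) {g : X₁ → ℂ}
    (hg : HolV (Fin n → ℂ) g (inv0 hM x)) (ξ : Fin n → ℂ) :
    J.dif (Fin n → ℂ) (fun z => g (inv0 hM z)) x ξ =
      J.dif (Fin n → ℂ) g (inv0 hM x) (dM (Fin n → ℂ) (Fin n → ℂ) (inv0 hM) x ξ) := by
  have h1 := dV_comp (h := g) hg (holM_inv' hM hx)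
  exact congrArg (fun A : (Fin n → ℂ) →L[ℂ] ℂ => A ξ) h1

/-- **the push-forward of a fibre form is a fibre form off `N`** -/
theorem push_good (hf : ∀ x, HolM (Fin n → ℂ) (Fin p → ℂ) f x) {K : ℕ}
    (η : X₁ → (Fin d → (Fin n → ℂ)) → ℂ) {x : X} (hx : x ∉ u '' excSet (Fin n → ℂ) u)
    {ζ : Fin d → X₁ → ℂ} {c : X₁ → ℂ}
    (h : IsFibreChart (Fin n → ℂ) (Fin p → ℂ) (fun x => f (u x)) ζ (inv0 hM x))
    (hc : HolV (Fin n → ℂ) c (inv0 hM x))
    (he : ∀ᶠ z in 𝓝 (inv0 hM x), ∀ ξ, IsVertical (Fin n → ℂ) (Fin p → ℂ) (fun x => f (u x)) z ξ →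
      η z ξ = c z * Dz (Fin n → ℂ) ζ z ξ ^ K) :
    Good (Fin n → ℂ) (Fin p → ℂ) f (u '' excSet (Fin n → ℂ) u) K (push hM η)
      (fun k z => ζ k (inv0 hM z)) (fun z => c (inv0 hM z)) x := by
  have hinv := holM_inv' hM hx
  refine ⟨⟨fun l => HolV.comp (h := ζ l) (h.1 l) hinv, fun ξ h1 h2 => ?_⟩,
    HolV.comp (h := c) hc hinv, ?_⟩
  · have h3 : dM (Fin n → ℂ) (Fin n → ℂ) (inv0 hM) x ξ = 0 := by
      refine h.2 _ ?_ fun l => ?_
      · have h4 := dM_f1_inv hM hf hx ξ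
        have h5 : dM (Fin n → ℂ) (Fin p → ℂ) f x ξ = 0 := h1
        rw [h5] at h4
        exact h4
      · rw [← dif_inv hM hx (h.1 l) ξ]
        exact h2 l
    have h6 := dM_u_inv hM hx ξ
    rw [h3, map_zero] at h6
    exact h6.symm
  · have hζ : ∀ᶠ z in 𝓝 (inv0 hM x), ∀ l, HolV (Fin n → ℂ) (ζ l) z :=
      (Filter.eventually_all).2 fun l => HolV.eventually (h.1 l)
    filter_upwards [hinv.continuousAt.eventually he, hinv.continuousAt.eventually hζ]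
      with z h1 h2 hz ξ hξ
    show η (inv0 hM z) (fun l => dM (Fin n → ℂ) (Fin n → ℂ) (inv0 hM) z (ξ l)) = _
    rw [h1 _ (vert_inv hM hf hz hξ)]
    congr 2
    unfold Dz
    congr 1
    ext k l
    simp only [Matrix.of_apply]
    exact (dif_inv hM hz (h2 k) (ξ l)).symm

/-- **T-SC, KC1: descent along a modification.** -/
theorem desc {n₀ m b t : ℕ}
    {V : Type} [NormedAddCommGroup V] [InnerProductSpace ℂ V] [FiniteDimensional ℂ V]
    (hM : Mod0 (n := n) u) (hN : IsSmall2 (Fin n → ℂ) (u '' excSet (Fin n → ℂ) u))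
    (hf : ∀ x, HolM (Fin n → ℂ) (Fin p → ℂ) f x)
    (e₀ : (Fin n → ℂ) ≃L[ℂ] ((Fin p → ℂ) × (Fin d → ℂ))) {S : Set Y}
    (hchart : ∀ x, f x ∉ S → ∃ ζ : Fin d → X → ℂ,
      IsFibreChart (Fin n → ℂ) (Fin p → ℂ) f ζ x)
    (hnull : ∀ (q : (Fin d → ℂ) → X) (v₀ : Fin d → ℂ) (r : ℝ), IsPolydisc (Fin n → ℂ) f q v₀ r →
      f (q v₀) ∉ S → volume {v | v ∈ ball v₀ r ∧ q v ∈ u '' excSet (Fin n → ℂ) u} = 0)
    {K : ℕ} {Q : (Fin n₀ → ℝ) → (Fin n₀ → ℝ) → ℝ} {s : ℕ}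
    {B : Fin b → Matrix (Fin m) (Fin m) ℝ} {w : Fin b → Fin m → ℝ} {e : Fin b → ℕ} {ι : Type}
    {U : ι → Set Y} {π : ι → Y → ((Fin n₀ → ℝ) ≃L[ℝ] V)} {P : ι → Y → Fin b → Fin m → ℂ}
    {η : ι → Fin t → X₁ → (Fin d → (Fin n → ℂ)) → ℂ}
    (h : IsPeriodForms (Fin n → ℂ) (Fin p → ℂ) (fun x => f (u x)) S 0 K (fun _ => 0) Q s B w e
      U π P η)
    (hno : NormP (E := Fin n → ℂ) (fun x => f (u x)) K Q s B e U π P η)
    (hra : RankP (E := Fin n → ℂ) (E' := Fin p → ℂ) (fun x => f (u x)) (excSet (Fin n → ℂ) u) U η) :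
    IsPeriodForms (Fin n → ℂ) (Fin p → ℂ) f S 0 K (fun _ => 0) Q s B w e U π P
      (fun a i => ext (Fin n → ℂ) (Fin p → ℂ) f (u '' excSet (Fin n → ℂ) u) K
        (push hM (η a i))) := by
  classical
  have hD : Dense (u '' excSet (Fin n → ℂ) u)ᶜ :=
    H383.Gen.dense_compl_small (H485.Gen.IsSmall2.small hN)
  -- local form of the push-forwards
  have hloc : ∀ a i z, f z ∈ U a → z ∉ u '' excSet (Fin n → ℂ) u → ∃ ζ' c',
      Good (Fin n → ℂ) (Fin p → ℂ) f (u '' excSet (Fin n → ℂ) u) K (push hM (η a i)) ζ' c' z := by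
    intro a i z hz hzN
    have h1 : f (u (inv0 hM z)) ∈ U a := by rw [u_inv0 hM]; exact hz
    obtain ⟨ζ, c, h2, h3, h4⟩ := h.forms a (inv0 hM z) h1 ∅ (fun _ _ => 1)
      (fun D hD => absurd rfl hD) (fun D hD => absurd hD (Finset.notMem_empty D))
    refine ⟨_, _, push_good hM hf (η a i) hzN h2 (h3 i) ?_⟩
    filter_upwards [h4] with s hs ξ hξ
    have h5 := hs (by simp) i ξ hξ
    rw [Finset.prod_empty, mul_one] at h5
    exact h5
  have hUo : ∀ a, IsOpen (f ⁻¹' U a) := fun a =>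
    (h.isOpen a).preimage (continuous_iff_continuousAt.2 fun x => (hf x).continuousAt)
  have hUS : ∀ a y, y ∈ U a → y ∉ S := fun a y hy => (h.cover y).2 ⟨a, hy⟩
  have hex : ∀ a i x, f x ∈ U a → ∀ ζ : Fin d → X → ℂ,
      IsFibreChart (Fin n → ℂ) (Fin p → ℂ) f ζ x → ∃ c,
      Good (Fin n → ℂ) (Fin p → ℂ) f (u '' excSet (Fin n → ℂ) u) K (push hM (η a i)) ζ c x :=
    fun a i x hx ζ hζ => exists_good hf e₀ hN (hUo a) (fun z hz => hloc a i z hz) hx hζ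
  have hoff : ∀ a i x, f x ∈ U a → x ∉ u '' excSet (Fin n → ℂ) u → ∀ ξ : Fin d → (Fin n → ℂ),
      IsVertical (Fin n → ℂ) (Fin p → ℂ) f x ξ →
      ext (Fin n → ℂ) (Fin p → ℂ) f (u '' excSet (Fin n → ℂ) u) K (push hM (η a i)) x ξ =
        push hM (η a i) x ξ := by
    intro a i x hx hxN ξ hξ
    obtain ⟨ζ', c', hg⟩ := hloc a i x hx hxN
    exact ext_off hf e₀ hD hg hxN ξ hξ
  refine { h.toIsPeriodFamily with
    period := h.period
    chart := hchart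
    forms := ?_
    rank := ?_
    change := ?_
    norm := ?_ }
  · -- forms
    intro a x hx T e' _ _
    obtain ⟨ζ, hζ⟩ := hchart x (hUS a _ hx)
    choose c hc using fun i => hex a i x hx ζ hζ
    refine ⟨ζ, c, hζ, fun i => (hc i).2.1, ?_⟩
    filter_upwards [(Filter.eventually_all).2 fun i => Good.near hf e₀ (hc i)] with z hz _ i ξ hξ
    simp only [pow_zero, Finset.prod_const_one, mul_one]
    exact ext_eq hf e₀ hD (hz i) ξ hξ
  · -- rank
    intro a y hy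
    obtain ⟨x₁, h1, h2, i, ξ, h3, h4⟩ := hra a y hy
    have hxN : u x₁ ∉ u '' excSet (Fin n → ℂ) u := fun hx => by
      obtain ⟨z, hz, hzx⟩ := hx
      exact h2 (by rwa [hM.inj x₁ z hzx.symm h2])
    refine ⟨u x₁, h1, fun D hD => absurd rfl hD, i, fun s => s.elim0, fun s => s.elim0,
      ⟨fun l => dM (Fin n → ℂ) (Fin n → ℂ) u x₁ (ξ l), fun l => ?_, ?_⟩, fun s => s.elim0,
      Filter.Eventually.of_forall fun z s => s.elim0, fun c _ => funext fun s => s.elim0⟩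
    · have h5 : dM (Fin n → ℂ) (Fin p → ℂ) (fun x => f (u x)) x₁ (ξ l) = 0 := h3 l
      rw [dM_f1 hf hM] at h5
      exact h5
    · have h5 : IsVertical (Fin n → ℂ) (Fin p → ℂ) f (u x₁)
          (fun l => dM (Fin n → ℂ) (Fin n → ℂ) u x₁ (ξ l)) := fun l => by
        have h5 : dM (Fin n → ℂ) (Fin p → ℂ) (fun x => f (u x)) x₁ (ξ l) = 0 := h3 l
        rw [dM_f1 hf hM] at h5
        exact h5
      have h6 : f (u x₁) ∈ U a := by
        rw [show f (u x₁) = y from h1]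
        exact hy
      show ext (Fin n → ℂ) (Fin p → ℂ) f (u '' excSet (Fin n → ℂ) u) K (push hM (η a i)) (u x₁)
        (fun l => dM (Fin n → ℂ) (Fin n → ℂ) u x₁ (ξ l)) ≠ 0
      rw [hoff a i _ h6 hxN _ h5]
      unfold push
      rw [inv0_u hM h2]
      have h7 : (fun l => dM (Fin n → ℂ) (Fin n → ℂ) (inv0 hM) (u x₁)
          (dM (Fin n → ℂ) (Fin n → ℂ) u x₁ (ξ l))) = ξ := funext fun l => dM_inv_u hM h2 _
      rw [h7]
      exact h4
  · -- change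
    intro a a' y hy
    obtain ⟨G, σ, χ, τ, h1, h2, h3⟩ := h.change a a' y hy
    refine ⟨G, σ, χ, τ, h1, h2, fun x hx _ i ξ hξ => ?_⟩
    set c₀ : ℂ := (G : V →L[ℂ] V).det ^ s * (∏ j, χ j ^ e j) with hc₀
    -- off `N`
    have h4 : ∀ x, f x = y → x ∉ u '' excSet (Fin n → ℂ) u → ∀ ξ : Fin d → (Fin n → ℂ),
        IsVertical (Fin n → ℂ) (Fin p → ℂ) f x ξ →
        ext (Fin n → ℂ) (Fin p → ℂ) f (u '' excSet (Fin n → ℂ) u) K (push hM (η a' (τ i))) x ξ =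
          c₀ * ext (Fin n → ℂ) (Fin p → ℂ) f (u '' excSet (Fin n → ℂ) u) K
            (push hM (η a i)) x ξ := by
      intro x hx hxN ξ hξ
      rw [hoff a i x (hx ▸ hy.1) hxN ξ hξ, hoff a' (τ i) x (hx ▸ hy.2) hxN ξ hξ]
      exact h3 (inv0 hM x) (by show f (u (inv0 hM x)) = y; rw [u_inv0 hM, hx])
        (fun D hD => absurd rfl hD) i _ (vert_inv hM hf hxN hξ)
    -- a chart at `x` and the coefficients
    have hxa : f x ∈ U a := hx ▸ hy.1
    have hxa' : f x ∈ U a' := hx ▸ hy.2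
    obtain ⟨ζ, hζ⟩ := hchart x (hUS a _ hxa)
    obtain ⟨c, hc⟩ := hex a i x hxa ζ hζ
    obtain ⟨c', hc'⟩ := hex a' (τ i) x hxa' ζ hζ
    have h5 : ∀ᶠ z in 𝓝 x, f z = y → z ∉ u '' excSet (Fin n → ℂ) u → c' z = c₀ * c z := by
      filter_upwards [Good.near hf e₀ hc, Good.near hf e₀ hc'] with z g1 g2 hzy hzN
      obtain ⟨ξ', hv, hd⟩ := exists_fr e₀ g1.1
      have h6 := h4 z hzy hzN ξ' hv
      rw [ext_eq hf e₀ hD g1 ξ' hv, ext_eq hf e₀ hD g2 ξ' hv, hd, one_pow, mul_one, mul_one] at h6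
      exact h6
    -- a slice
    obtain ⟨q, hq, hq0, hqe⟩ := exists_slice hf e₀ (holV_vec hζ.1) (fc_inj hζ)
    have hqt : Tendsto q (𝓝 (vec ζ x)) (𝓝 x) := by
      have := hq.continuousAt.tendsto
      rwa [hq0] at this
    obtain ⟨r, hr, hball⟩ := Metric.eventually_nhds_iff_ball.1
      (((contMDiffAt_iff_contMDiffAt_nhds (n := ω) (by simp)).1 hq).and hqe)
    have hpoly : IsPolydisc (Fin n → ℂ) f q (vec ζ x) r := by
      refine ⟨fun v hv => (hball v hv).1, fun v hv v' hv' he => ?_, fun v hv => ?_⟩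
      · rw [← (hball v hv).2.2, ← (hball v' hv').2.2, he]
      · rw [(hball v hv).2.1, hq0]
    have hnl := hnull q (vec ζ x) r hpoly (by rw [hq0]; exact hUS a _ hxa)
    have h6 : c' x = c₀ * c x := by
      have hacc : ∃ᶠ v in 𝓝 (vec ζ x), v ∈ ball (vec ζ x) r ∧
          q v ∉ u '' excSet (Fin n → ℂ) u := by
        rw [Filter.frequently_iff]
        intro W hW
        by_contra hcon
        push Not at hcon
        have h7 : W ∩ ball (vec ζ x) r ⊆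
            {v | v ∈ ball (vec ζ x) r ∧ q v ∈ u '' excSet (Fin n → ℂ) u} :=
          fun v hv => ⟨hv.2, hcon v hv.1 hv.2⟩
        have h8 : volume (W ∩ ball (vec ζ x) r) = 0 := measure_mono_null h7 hnl
        exact (MeasureTheory.Measure.measure_pos_of_mem_nhds volume
          (Filter.inter_mem hW (ball_mem_nhds _ hr))).ne' h8
      have t1 : Tendsto (fun v => c' (q v)) (𝓝 (vec ζ x)) (𝓝 (c' x)) :=
        hc'.2.1.continuousAt.tendsto.comp hqt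
      have t2 : Tendsto (fun v => c₀ * c (q v)) (𝓝 (vec ζ x)) (𝓝 (c₀ * c x)) :=
        (hc.2.1.continuousAt.tendsto.comp hqt).const_mul c₀
      set A : Set (Fin d → ℂ) := {v | v ∈ ball (vec ζ x) r ∧
        q v ∉ u '' excSet (Fin n → ℂ) u} with hA
      have hne : (𝓝[A] (vec ζ x)).NeBot :=
        mem_closure_iff_nhdsWithin_neBot.1 (mem_closure_iff_frequently.2 hacc)
      refine tendsto_nhds_unique (l := 𝓝[A] (vec ζ x)) (t1.mono_left nhdsWithin_le_nhds)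
        ((t2.mono_left nhdsWithin_le_nhds).congr' ?_)
      rw [EventuallyEq, eventually_nhdsWithin_iff]
      filter_upwards [hqt.eventually h5, hqe] with v g1 g2 hv
      exact (g1 (g2.1.trans hx) hv.2).symm
    rw [ext_eq hf e₀ hD hc ξ hξ, ext_eq hf e₀ hD hc' ξ hξ, h6, mul_assoc]
  · -- norm
    obtain ⟨A, hA⟩ := hno
    refine ⟨A, fun a i q v₀ r hq hqa _ G hG => ?_⟩
    set D : Set (Fin d → ℂ) := {v | v ∈ ball v₀ r ∧ q v ∉ u '' excSet (Fin n → ℂ) u} with hDd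
    have hqc : ContinuousOn q (ball v₀ r) := fun x hx =>
      (hq.1 x hx).continuousAt.continuousWithinAt
    have hDo : IsOpen D := hqc.isOpen_inter_preimage isOpen_ball hN.1.isOpen_compl
    have hD0 := hnull q v₀ r hq (hUS a _ hqa)
    have hfq : ∀ v ∈ D, f (u (inv0 hM (q v))) = f (q v₀) := fun v hv => by
      rw [u_inv0 hM]
      exact hq.2.2 v hv.1
    have hq₁ : ∀ v ∈ D, ContMDiffAt 𝓘(ℂ, Fin d → ℂ) 𝓘(ℂ, Fin n → ℂ) ω
        (fun v => inv0 hM (q v)) v := fun v hv =>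
      ContMDiffAt.comp v (g := inv0 hM) (f := q) (holM_inv' hM hv.2) (hq.1 v hv.1)
    have h1 := hA a i (f (q v₀)) hqa D (fun v => inv0 hM (q v)) hDo hq₁
      (fun v hv v' hv' he => hq.2.1 hv.1 hv'.1 ?_) hfq G hG
    rotate_left
    · have h9 : u (inv0 hM (q v)) = u (inv0 hM (q v')) := congrArg u he
      rwa [u_inv0 hM, u_inv0 hM] at h9
    have h2 : ∫⁻ v in ball v₀ r, ‖pull (Fin n → ℂ) (ext (Fin n → ℂ) (Fin p → ℂ) f
          (u '' excSet (Fin n → ℂ) u) K (push hM (η a i))) q v‖ₑ ^ (2 / (K : ℝ)) =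
        ∫⁻ v in D, ‖pull (Fin n → ℂ) (η a i) (fun v => inv0 hM (q v)) v‖ₑ ^ (2 / (K : ℝ)) := by
      have h3 : (ball v₀ r : Set (Fin d → ℂ)) =ᵐ[volume] D := by
        refine Filter.EventuallyLE.antisymm ?_ (Filter.Eventually.of_forall fun v hv => hv.1)
        rw [ae_le_set]
        refine measure_mono_null ?_ hD0
        intro v hv
        refine ⟨hv.1, ?_⟩
        by_contra hcon
        exact hv.2 ⟨hv.1, hcon⟩
      rw [setLIntegral_congr h3]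
      refine setLIntegral_congr_fun hDo.measurableSet fun v hv => ?_
      have h4 : IsVertical (Fin n → ℂ) (Fin p → ℂ) f (q v)
          (fun l : Fin d => dM (Fin d → ℂ) (Fin n → ℂ) q v (Pi.single l 1)) := fun l =>
        slice_ker hf (hq.1 v hv.1) (by
          filter_upwards [isOpen_ball.mem_nhds hv.1] with z hz
          rw [hq.2.2 z hz, hq.2.2 v hv.1]) (Pi.single l 1)
      have h5 : f (q v) ∈ U a := by
        rw [hq.2.2 v hv.1]
        exact hqa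
      have h6 := hoff a i (q v) h5 hv.2 _ h4
      show ‖ext (Fin n → ℂ) (Fin p → ℂ) f (u '' excSet (Fin n → ℂ) u) K (push hM (η a i)) (q v)
        (fun l : Fin d => dM (Fin d → ℂ) (Fin n → ℂ) q v (Pi.single l 1))‖ₑ ^ (2 / (K : ℝ)) = _
      rw [h6]
      have h7 : ∀ l : Fin d, dM (Fin n → ℂ) (Fin n → ℂ) (inv0 hM) (q v)
          (dM (Fin d → ℂ) (Fin n → ℂ) q v (Pi.single l 1)) =
          dM (Fin d → ℂ) (Fin n → ℂ) (fun v => inv0 hM (q v)) v (Pi.single l 1) := fun l =>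
        (mfderiv_comp_apply v (g := inv0 hM) (f := q)
          ((holM_inv' hM hv.2).mdifferentiableAt (by simp))
          ((hq.1 v hv.1).mdifferentiableAt (by simp)) (Pi.single l 1)).symm
      unfold push
      rw [funext h7]
      rfl
    rw [h2]
    exact h1

end push

end Vale.Agent.P281.H152.SC
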