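import Vale.Agent.P281.H152.SC.Jac
import Vale.Agent.P281.H485.Gen.Har

/-!
# P281, T-SC (helper152), part 2: extension of fibre forms across a small set
-/

open Set Filter Metric
open scoped Topology ContDiff Manifold

set_option linter.unusedSectionVars false

noncomputable section

namespace Vale.Agent.P281.H152.SC

open Vale.Agent.P281 Vale.Agent.P281.MF Vale.Agent.P281.ISO Vale.Agent.P281.ELL
open Vale.Agent.P281.H713

section good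

variable {E E' : Type} [NormedAddCommGroup E] [NormedSpace ℂ E] [FiniteDimensional ℂ E]
  [NormedAddCommGroup E'] [NormedSpace ℂ E'] [FiniteDimensional ℂ E'] {d : ℕ}
variable {X Y : Type} [TopologicalSpace X] [ChartedSpace E X] [IsManifold 𝓘(ℂ, E) ω X]
  [TopologicalSpace Y] [ChartedSpace E' Y] [IsManifold 𝓘(ℂ, E') ω Y] {f : X → Y}

/-- `P = c (dζ)^K` off `N`, near `x` -/
def Good (E E' : Type) [NormedAddCommGroup E] [NormedSpace ℂ E] [NormedAddCommGroup E']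
    [NormedSpace ℂ E'] {d : ℕ} {X Y : Type} [TopologicalSpace X] [ChartedSpace E X]
    [TopologicalSpace Y] [ChartedSpace E' Y] (f : X → Y) (N : Set X) (K : ℕ)
    (P : X → (Fin d → E) → ℂ) (ζ : Fin d → X → ℂ) (c : X → ℂ) (x : X) : Prop :=
  IsFibreChart E E' f ζ x ∧ HolV E c x ∧ ∀ᶠ z in 𝓝 x, z ∉ N → ∀ ξ, IsVertical E E' f z ξ →
    P z ξ = c z * Dz E ζ z ξ ^ K

variable {N : Set X} {K : ℕ} {P : X → (Fin d → E) → ℂ}

theorem Good.near (hf : ∀ x, HolM E E' f x) (e₀ : E ≃L[ℂ] (E' × (Fin d → ℂ)))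
    {ζ : Fin d → X → ℂ} {c : X → ℂ} {x : X} (h : Good E E' f N K P ζ c x) :
    ∀ᶠ z in 𝓝 x, Good E E' f N K P ζ c z := by
  filter_upwards [fc_near hf e₀ h.1, h.2.1.eventually, h.2.2.eventually_nhds] with z h1 h2 h3
  exact ⟨h1, h2, h3⟩

theorem Dz_change {ζ ζ' : Fin d → X → ℂ} {ρ : X → ℂ} {z : X} {ξ : Fin d → E}
    (h : Dz E ζ' z ξ = ρ z * Dz E ζ z ξ) (K : ℕ) (c : ℂ) :
    c * Dz E ζ' z ξ ^ K = (c * ρ z ^ K) * Dz E ζ z ξ ^ K := by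
  rw [h, mul_pow]
  ring

/-- two good pairs have the same values -/
theorem Good.eq (hf : ∀ x, HolM E E' f x) (e₀ : E ≃L[ℂ] (E' × (Fin d → ℂ)))
    (hN : Dense Nᶜ) {ζ ζ' : Fin d → X → ℂ} {c c' : X → ℂ} {x : X}
    (h : Good E E' f N K P ζ c x) (h' : Good E E' f N K P ζ' c' x) (ξ : Fin d → E)
    (hξ : IsVertical E E' f x ξ) : c x * Dz E ζ x ξ ^ K = c' x * Dz E ζ' x ξ ^ K := by
  obtain ⟨ρ, hρ, he⟩ := jac_fc hf e₀ h.1 h'.1
  have h1 : ∀ᶠ z in 𝓝 x, z ∉ N → c z = c' z * ρ z ^ K := by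
    filter_upwards [he, h.2.2, h'.2.2, fc_near hf e₀ h.1] with z a1 a2 a3 a4 hz
    obtain ⟨ξ', hv, hd⟩ := exists_fr e₀ a4
    have h2 := a2 hz ξ' hv
    have h3 := a3 hz ξ' hv
    rw [Dz_change (a1 ξ' hv), h2, hd, one_pow, mul_one, mul_one] at h3
    exact h3
  have h2 : c x = c' x * ρ x ^ K := by
    have hc1 : Tendsto c (𝓝[Nᶜ] x) (𝓝 (c x)) := h.2.1.continuousAt.tendsto.mono_left
      nhdsWithin_le_nhds
    have hc2 : Tendsto (fun z => c' z * ρ z ^ K) (𝓝[Nᶜ] x) (𝓝 (c' x * ρ x ^ K)) :=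
      (((h'.2.1.continuousAt.mul (hρ.continuousAt.pow K)).tendsto)).mono_left nhdsWithin_le_nhds
    have hne : (𝓝[Nᶜ] x).NeBot := mem_closure_iff_nhdsWithin_neBot.1 (hN x)
    refine tendsto_nhds_unique hc1 (hc2.congr' ?_)
    rw [EventuallyEq, eventually_nhdsWithin_iff]
    filter_upwards [h1] with z hz hzN
    exact (hz hzN).symm
  rw [Dz_change (he.self_of_nhds ξ hξ), h2]

open Classical in
/-- the extended form -/
def ext (E E' : Type) [NormedAddCommGroup E] [NormedSpace ℂ E] [NormedAddCommGroup E']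
    [NormedSpace ℂ E'] {d : ℕ} {X Y : Type} [TopologicalSpace X] [ChartedSpace E X]
    [TopologicalSpace Y] [ChartedSpace E' Y] (f : X → Y) (N : Set X) (K : ℕ)
    (P : X → (Fin d → E) → ℂ) (x : X) (ξ : Fin d → E) : ℂ :=
  if h : ∃ a : (Fin d → X → ℂ) × (X → ℂ), Good E E' f N K P a.1 a.2 x then
    (Classical.choose h).2 x * Dz E (Classical.choose h).1 x ξ ^ K else 0

theorem ext_eq (hf : ∀ x, HolM E E' f x) (e₀ : E ≃L[ℂ] (E' × (Fin d → ℂ)))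
    (hN : Dense Nᶜ) {ζ : Fin d → X → ℂ} {c : X → ℂ} {x : X}
    (h : Good E E' f N K P ζ c x) (ξ : Fin d → E) (hξ : IsVertical E E' f x ξ) :
    ext E E' f N K P x ξ = c x * Dz E ζ x ξ ^ K := by
  have h1 : ∃ a : (Fin d → X → ℂ) × (X → ℂ), Good E E' f N K P a.1 a.2 x := ⟨(ζ, c), h⟩
  rw [ext, dif_pos h1]
  exact Good.eq hf e₀ hN (Classical.choose_spec h1) h ξ hξ

theorem ext_off (hf : ∀ x, HolM E E' f x) (e₀ : E ≃L[ℂ] (E' × (Fin d → ℂ)))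
    (hN : Dense Nᶜ) {ζ : Fin d → X → ℂ} {c : X → ℂ} {x : X}
    (h : Good E E' f N K P ζ c x) (hx : x ∉ N) (ξ : Fin d → E) (hξ : IsVertical E E' f x ξ) :
    ext E E' f N K P x ξ = P x ξ := by
  rw [ext_eq hf e₀ hN h ξ hξ]
  exact (h.2.2.self_of_nhds hx ξ hξ).symm

end good

section ex

open Vale.Agent.P281.H64.Gen

variable {n p d : ℕ} {X Y : Type} [TopologicalSpace X] [T2Space X] [ChartedSpace (Fin n → ℂ) X]
  [IsManifold 𝓘(ℂ, Fin n → ℂ) ω X]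
  [TopologicalSpace Y] [ChartedSpace (Fin p → ℂ) Y] [IsManifold 𝓘(ℂ, Fin p → ℂ) ω Y] {f : X → Y}
  {N : Set X} {K : ℕ} {P : X → (Fin d → (Fin n → ℂ)) → ℂ}

/-- **extension by Hartogs** -/
theorem exists_good (hf : ∀ x, HolM (Fin n → ℂ) (Fin p → ℂ) f x)
    (e₀ : (Fin n → ℂ) ≃L[ℂ] ((Fin p → ℂ) × (Fin d → ℂ))) (hN : IsSmall2 (Fin n → ℂ) N)
    {O : Set X} (hO : IsOpen O)
    (hloc : ∀ z ∈ O, z ∉ N → ∃ ζ' c', Good (Fin n → ℂ) (Fin p → ℂ) f N K P ζ' c' z)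
    {ζ : Fin d → X → ℂ} {x : X} (hx : x ∈ O) (h : IsFibreChart (Fin n → ℂ) (Fin p → ℂ) f ζ x) :
    ∃ c, Good (Fin n → ℂ) (Fin p → ℂ) f N K P ζ c x := by
  classical
  obtain ⟨W, hW, hWo, hxW⟩ := mem_nhds_iff.1 (Filter.inter_mem (fc_near hf e₀ h) (hO.mem_nhds hx))
  have hfr : ∀ z ∈ W, ∃ ξ : Fin d → (Fin n → ℂ),
      IsVertical (Fin n → ℂ) (Fin p → ℂ) f z ξ ∧ Dz (Fin n → ℂ) ζ z ξ = 1 := fun z hz =>
    exists_fr e₀ (hW hz).1
  choose! fr hfv hfd using hfr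
  set c₀ : X → ℂ := fun z => P z (fr z) with hc₀
  have key : ∀ z ∈ W, z ∉ N → HolV (Fin n → ℂ) c₀ z ∧
      ∀ ξ, IsVertical (Fin n → ℂ) (Fin p → ℂ) f z ξ →
        P z ξ = c₀ z * Dz (Fin n → ℂ) ζ z ξ ^ K := by
    intro z hz hzN
    obtain ⟨ζ', c', hg⟩ := hloc z (hW hz).2 hzN
    obtain ⟨ρ, hρ, he⟩ := jac_fc hf e₀ (hW hz).1 hg.1
    have h1 : ∀ᶠ s in 𝓝 z, ∀ ξ, IsVertical (Fin n → ℂ) (Fin p → ℂ) f s ξ →
        P s ξ = (c' s * ρ s ^ K) * Dz (Fin n → ℂ) ζ s ξ ^ K := by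
      filter_upwards [he, hg.2.2, hN.1.isOpen_compl.mem_nhds hzN] with s a1 a2 a3 ξ hξ
      rw [a2 a3 ξ hξ, Dz_change (a1 ξ hξ)]
    have h2 : ∀ᶠ s in 𝓝 z, c₀ s = c' s * ρ s ^ K := by
      filter_upwards [h1, hWo.mem_nhds hz] with s a1 a2
      have h3 := a1 (fr s) (hfv s a2)
      rw [hfd s a2, one_pow, mul_one] at h3
      exact h3
    have hρK : HolV (Fin n → ℂ) (fun s => ρ s ^ K) z :=
      HolV.comp_contDiff (G := fun c : ℂ => c ^ K) (contDiff_id.pow K).contDiffAt hρ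
    refine ⟨(hg.2.1.mul hρK).congr h2, fun ξ hξ => ?_⟩
    rw [h1.self_of_nhds ξ hξ, h2.self_of_nhds]
  obtain ⟨c, hc1, hc2⟩ := H485.Gen.har n X N W c₀ hN hWo fun z hz hzN => (key z hz hzN).1
  refine ⟨c, h, hc1 x hxW, ?_⟩
  filter_upwards [hWo.mem_nhds hxW] with z hz hzN ξ hξ
  rw [(key z hz hzN).2 ξ hξ, hc2 z hz hzN]

end ex

end Vale.Agent.P281.H152.SC
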