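import Vale.Agent.P281.H152.SC.Form2
import Vale.Agent.P281.H615.NC.FibH

/-!
# P281, T-HK for the class C (helper152): the assembly
-/

open Set Filter Metric MeasureTheory Vale.Agent.P281 Vale.Agent.P281.H713
open Vale.Agent.P272.K (Chart IsKahler IsHermitian)
open Vale.Agent.P281.H713.TZ Vale.Agent.P281.H64
open Vale.Agent.P281.H64.Gen
open Vale.Agent.P281.H64.Thin (IsThinSet)
open Vale.Agent.P281.H383.C (CTameOKStmt)
open Vale.Agent.P281.H64.TK (GenNStmt)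
open Vale.Agent.P281.H83.HK (Glob2Stmt FormsStmt Per2Stmt PullMark2Stmt TwoMark2Stmt Sympl)
open scoped Topology ContDiff Manifold

set_option linter.all false

noncomputable section

namespace Vale.Agent.P281.H152.SC

/-- **T-HK for the class C**: `X₁ → X` a modification, `X₁` Kähler; the fibres of `f` have finite
étale coverings `F` which are simply connected, with `h⁰(F, Ω²) = 1` and a generically nondegenerate
2-form. -/
def THKCStmt : Prop :=
  ∀ (p d : ℕ) (X Y X₁ : Type) [TopologicalSpace X] [ChartedSpace (Cm (p + d)) X]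
    [TopologicalSpace Y] [ChartedSpace (Cm p) Y] [TopologicalSpace X₁]
    [ChartedSpace (Cm (p + d)) X₁] (f : X → Y) (Δ : Set X → ℝ) (u : X₁ → X), 2 ≤ d →
    H511.Surf.IsFibration (Cm (p + d)) (Cm p) f Δ → TZ.S.IsModif (Cm (p + d)) u →
    (∃ w : Chart (p + d) X₁ → Cm (p + d) → Matrix (Fin (p + d)) (Fin (p + d)) ℂ, IsKahler w) →
    ∃ H : ℕ → Set Y, (∀ k, IsThinSet (Cm p) (H k)) ∧ ∀ y, (∀ k, y ∉ H k) →
      ∀ (F : Type) [TopologicalSpace F] [T2Space F] [SimplyConnectedSpace F]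
        [ChartedSpace (Cm d) F] (i : F → X), H511.Surf.IsFibre (Cm (p + d)) (Cm d) f y i →
        Sympl d F →
        TZ.S.kodF (p + d) p Δ (id : X → X) f ≤ TZ.S.kodX (Cm (p + d)) Δ

theorem thkC_of (glob : Glob2Stmt) (hK : TK.KStmt) (hF : FormsStmt) (hPer : Per2Stmt)
    (hPM : PullMark2Stmt) (hTM : TwoMark2Stmt) (ab : TK.ABStmt) (gen : GenNStmt) (exc : ExcStmt)
    (crit : CritStmt) (compl : ComplStmt) (har : HartogsStmt) (lift : TU.LiftTStmt)
    (tame : CTameOKStmt) : THKCStmt := by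
  intro p d X Y X₁ _ _ _ _ _ _ f Δ u hd h hu hw
  obtain ⟨w, hw⟩ := hw
  have : T2Space X := h.hausdorff.1
  have : T2Space Y := h.hausdorff.2
  have : T2Space X₁ := hu.1.2.1
  have : IsManifold 𝓘(ℂ, Cm (p + d)) ω X := h.manifold.1
  have : IsManifold 𝓘(ℂ, Cm p) ω Y := h.manifold.2
  have : IsManifold 𝓘(ℂ, Cm (p + d)) ω X₁ := hu.1.2.2.2
  obtain ⟨S, H, hS, hpre, hP, hP₁, hH, hmain, hfirst⟩ :=
    main gen exc crit compl har lift tame h hu hw
  refine ⟨H, hH, fun y hy F _ _ _ _ i hi hF' => hfirst ?_⟩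
  obtain ⟨hyS, hsq⟩ := hmain y hy
  obtain ⟨N, hN, hND⟩ := H615.NC.fibHC (by omega) (hsq F i hi) ab hF'
  have hf₁ : ContMDiff 𝓘(ℂ, Cm (p + d)) 𝓘(ℂ, Cm p) ω fun z => f (u z) := h.hol.comp hu.2.1
  obtain ⟨n, B, v, R, hR, hL⟩ := glob p d N X₁ Y (fun z => f (u z)) S w y hd hf₁ hP₁ hpre hw hyS
    hND
  exact form2O hK hF hPer hPM hTM p d N X₁ Y (fun z => f (u z)) S w n B v R hN hd hR hf₁ hw hL

end Vale.Agent.P281.H152.SC
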