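import Vale.Agent.P281.H152.SC.Hk
import Vale.Agent.P281.H83.HK.Fin
import Vale.Agent.P281.H603.C.TEFin

/-!
# P281, T-HK for the class C (helper152): the theorem
-/

open Vale.Agent.P281 Vale.Agent.P281.H64 Vale.Agent.P281.H64.TK.TS

noncomputable section

namespace Vale.Agent.P281.H152.SC

open Vale.Agent.P281.H83.HK

theorem aPer : Per2Stmt := H594.HK.per2 aHI aForms aPos

theorem aGlob : Glob2Stmt :=
  H399.HK.glob TK.inputs aMark
    (H834.HK.gen2Const aMark H864.TS.pull aForms aPos aHI aPM aKC H191.TS.sig)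
    aPer aPM H594.HK.grauert2 H702.HK.holP2 aKC aRA aForms

/-- **T-HK for the class C** -/
theorem thkC : THKCStmt :=
  thkC_of aGlob TK.inputs.k aForms aPer aPM H191.HK.twoMark2 TK.inputs.ab H383.KN.genN
    H737.Gen.exc H303.UF.crit H383.Gen.compl H485.Gen.har H383.U.liftT H383.C.cTameOK

end Vale.Agent.P281.H152.SC
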