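import Vale.Agent.P281.H713.ZE
import Vale.Agent.P281.H713.Slice2
import Vale.Agent.P281.H603.K.KodN0
import Vale.Agent.P281.H64.Gen.SpecN

/-!
# P281, T-SC (helper152), part 1: fibre charts, the inverse of a modification
-/

open Set Filter Metric
open scoped Topology ContDiff Manifold

set_option linter.unusedSectionVars false

noncomputable section

namespace Vale.Agent.P281.H152.SC

open Vale.Agent.P281 Vale.Agent.P281.MF Vale.Agent.P281.ISO Vale.Agent.P281.ELL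
open Vale.Agent.P281.H713

section lin
variable {d : ℕ}

theorem det_of_clm (B : (Fin d → ℂ) →L[ℂ] (Fin d → ℂ)) (v : Fin d → Fin d → ℂ) :
    (Matrix.of fun k l => B (v l) k).det = B.det * (Matrix.of fun k l => v l k).det := by
  rw [det_clm_eq B, ← Matrix.det_mul]
  congr 1
  ext k l
  rw [Matrix.mul_apply]
  simp only [Matrix.of_apply]
  have h1 : v l = ∑ m, v l m • (Pi.single m (1 : ℂ) : Fin d → ℂ) := by
    conv_lhs => rw [pi_eq_sum_univ' (v l)]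
  conv_lhs => rw [h1]
  rw [map_sum, Finset.sum_apply]
  refine Finset.sum_congr rfl fun m _ => ?_
  rw [map_smul, Pi.smul_apply, smul_eq_mul, mul_comm]

end lin

section fc

variable {E E' : Type} [NormedAddCommGroup E] [NormedSpace ℂ E] [FiniteDimensional ℂ E]
  [NormedAddCommGroup E'] [NormedSpace ℂ E'] [FiniteDimensional ℂ E'] {d : ℕ}
variable {X Y : Type} [TopologicalSpace X] [ChartedSpace E X] [IsManifold 𝓘(ℂ, E) ω X]
  [TopologicalSpace Y] [ChartedSpace E' Y] [IsManifold 𝓘(ℂ, E') ω Y] {f : X → Y}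

/-- `dζ_0 ∧ ⋯ ∧ dζ_{d-1}` -/
def Dz (E : Type) [NormedAddCommGroup E] [NormedSpace ℂ E] {X : Type} [TopologicalSpace X]
    [ChartedSpace E X] {d : ℕ} (ζ : Fin d → X → ℂ) (z : X) (ξ : Fin d → E) : ℂ :=
  (Matrix.of fun k l => J.dif E (ζ k) z (ξ l)).det

theorem Dz_eq {ζ : Fin d → X → ℂ} {z : X} (h : ∀ i, HolV E (ζ i) z) (ξ : Fin d → E) :
    Dz E ζ z ξ = (Matrix.of fun k l => dV E (vec ζ) z (ξ l) k).det := by
  unfold Dz
  congr 1
  ext k l
  exact (dV_vec h (ξ l) k).symm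

theorem fc_inj {ζ : Fin d → X → ℂ} {z : X} (h : IsFibreChart E E' f ζ z) (ξ : E)
    (h1 : dM E E' f z ξ = 0) (h2 : dV E (vec ζ) z ξ = 0) : ξ = 0 := by
  refine h.2 ξ h1 fun l => ?_
  have h3 := dV_vec (E := E) h.1 ξ l
  rw [h2] at h3
  exact h3.symm

theorem fc_near (hf : ∀ x, HolM E E' f x) (e₀ : E ≃L[ℂ] (E' × (Fin d → ℂ))) {ζ : Fin d → X → ℂ}
    {x : X} (h : IsFibreChart E E' f ζ x) : ∀ᶠ z in 𝓝 x, IsFibreChart E E' f ζ z := by
  have hv : HolV E (vec ζ) x := holV_vec h.1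
  filter_upwards [ker_eventually hf e₀ hv (fc_inj h),
    (Filter.eventually_all).2 fun l => HolV.eventually (h.1 l)] with z h1 h2
  refine ⟨h2, fun ξ h3 h4 => h1 ξ h3 ?_⟩
  funext l
  have h5 := dV_vec (E := E) h2 ξ l
  rw [h5]
  exact h4 l

/-- vertical frames -/
theorem exists_fr (e₀ : E ≃L[ℂ] (E' × (Fin d → ℂ))) {ζ : Fin d → X → ℂ}
    {x : X} (h : IsFibreChart E E' f ζ x) :
    ∃ ξ : Fin d → E, IsVertical E E' f x ξ ∧ Dz E ζ x ξ = 1 := by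
  obtain ⟨T, h1, h2⟩ := exists_frame_of e₀ (fc_inj h)
  refine ⟨fun l => T (Pi.single l 1), fun l => h1 _, ?_⟩
  rw [Dz_eq h.1]
  have h3 : (Matrix.of fun k l => dV E (vec ζ) x (T (Pi.single l 1)) k) =
      (1 : Matrix (Fin d) (Fin d) ℂ) := by
    ext k l
    rw [Matrix.of_apply, h2, Matrix.one_apply, Pi.single_apply]
  rw [h3, Matrix.det_one]

/-- **comparison of two fibre charts** -/
theorem jac_fc (hf : ∀ x, HolM E E' f x) (e₀ : E ≃L[ℂ] (E' × (Fin d → ℂ))) {x : X}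
    {ζ ζ' : Fin d → X → ℂ} (h : IsFibreChart E E' f ζ x) (h' : IsFibreChart E E' f ζ' x) :
    ∃ ρ : X → ℂ, HolV E ρ x ∧ ∀ᶠ z in 𝓝 x, ∀ ξ : Fin d → E, IsVertical E E' f z ξ →
      Dz E ζ' z ξ = ρ z * Dz E ζ z ξ := by
  have hv : HolV E (vec ζ) x := holV_vec h.1
  have hv' : HolV E (vec ζ') x := holV_vec h'.1
  obtain ⟨J₁, hJ₁, hev₁⟩ := JP_local hf e₀ (mem_chart_source E x) (mem_chart_source E' (f x)) hv
  obtain ⟨J₂, hJ₂, hev₂⟩ := JP_local hf e₀ (mem_chart_source E x) (mem_chart_source E' (f x)) hv'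
  have h1 : J₁ x ≠ 0 := by
    intro h0
    have h2 := hev₁.self_of_nhds
    rw [h0, zero_mul] at h2
    exact (mul_ne_zero (jac_chart_ne_zero (mem_chart_source E' (f x)))
      (JP_ne_zero e₀ (fc_inj h))) h2.symm
  have hinv : HolV E (fun z => (J₁ z)⁻¹) x :=
    HolV.comp_contDiff (G := fun c : ℂ => c⁻¹) (contDiffAt_inv ℂ h1) hJ₁
  refine ⟨fun z => J₂ z * (J₁ z)⁻¹, hJ₂.mul hinv, ?_⟩
  filter_upwards [hev₁, hev₂, fc_near hf e₀ h, fc_near hf e₀ h', hJ₁.continuousAt.eventually_ne h1,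
    (chartAt E x).open_source.mem_nhds (mem_chart_source E x),
    (hf x).continuousAt.eventually ((chartAt E' (f x)).open_source.mem_nhds
      (mem_chart_source E' (f x)))] with z a1 a2 a3 a4 a5 a6 a7 ξ hξ
  obtain ⟨T, hT1, hT2⟩ := exists_frame_of e₀ (fc_inj a3)
  have h3 := JP_gen e₀ hT1 hT2 (fc_inj a4)
  have h4 := JP_ne_zero e₀ (fc_inj a3)
  have h5 := jac_chart_ne_zero (E := E') a7
  have h6 := jac_chart_ne_zero (E := E) a6
  set B : (Fin d → ℂ) →L[ℂ] (Fin d → ℂ) := (dV E (vec ζ') z).comp T with hB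
  have h7 : B.det = J₂ z * (J₁ z)⁻¹ := by
    rw [eq_mul_inv_iff_mul_eq₀ a5]
    apply mul_right_cancel₀ h6
    rw [a2, h3, mul_assoc, a1]
    ring
  rw [← h7, Dz_eq a3.1, Dz_eq a4.1, ← det_of_clm]
  congr 1
  ext k l
  simp only [Matrix.of_apply]
  have h8 : T (dV E (vec ζ) z (ξ l)) = ξ l := by
    rw [← sub_eq_zero]
    refine fc_inj a3 _ ?_ ?_
    · rw [map_sub, hT1, zero_sub, neg_eq_zero]
      exact hξ l
    · rw [map_sub, hT2, sub_self]
  show _ = (dV E (vec ζ') z) (T (dV E (vec ζ) z (ξ l))) k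
  rw [h8]

end fc

section inv

open Vale.Agent.P281.H64.Gen Vale.Agent.P281.H603.KodN

variable {n : ℕ} {X X₁ : Type} [TopologicalSpace X] [ChartedSpace (Fin n → ℂ) X]
  [IsManifold 𝓘(ℂ, Fin n → ℂ) ω X] [TopologicalSpace X₁] [ChartedSpace (Fin n → ℂ) X₁]
  [IsManifold 𝓘(ℂ, Fin n → ℂ) ω X₁] {u : X₁ → X} (hM : Mod0 (n := n) u)

/-- the inverse is holomorphic -/
theorem holM_inv {z : X₁} (hz : z ∉ excSet (Fin n → ℂ) u) :
    HolM (Fin n → ℂ) (Fin n → ℂ) (inv0 hM) (u z) := by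
  have hzs := mem_chart_source (Fin n → ℂ) z
  have h1 : HolV (Fin n → ℂ) (fun y => chartAt (Fin n → ℂ) z (inv0 hM y)) (u z) :=
    holV_of_inv0 hM hz (HolV.chart hzs)
  have h0 : inv0 hM (u z) = z := inv0_u hM hz
  have h2 : ContMDiffAt 𝓘(ℂ, Fin n → ℂ) 𝓘(ℂ, Fin n → ℂ) ω (chartAt (Fin n → ℂ) z).symm
      (chartAt (Fin n → ℂ) z (inv0 hM (u z))) := by
    rw [h0]
    exact contMDiffOn_chart_symm.contMDiffAt
      ((chartAt (Fin n → ℂ) z).open_target.mem_nhds ((chartAt (Fin n → ℂ) z).map_source hzs))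
  have h3 : ContMDiffAt 𝓘(ℂ, Fin n → ℂ) 𝓘(ℂ, Fin n → ℂ) ω
      (fun y => (chartAt (Fin n → ℂ) z).symm (chartAt (Fin n → ℂ) z (inv0 hM y))) (u z) :=
    ContMDiffAt.comp (u z) (g := (chartAt (Fin n → ℂ) z).symm)
      (f := fun y => chartAt (Fin n → ℂ) z (inv0 hM y)) h2 h1
  refine ContMDiffAt.congr_of_eventuallyEq h3 ?_
  filter_upwards [(tendsto_inv0 hM hz).eventually
    ((chartAt (Fin n → ℂ) z).open_source.mem_nhds hzs)] with y hy
  exact ((chartAt (Fin n → ℂ) z).left_inv hy).symm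

theorem holM_inv' {x : X} (hx : x ∉ u '' excSet (Fin n → ℂ) u) :
    HolM (Fin n → ℂ) (Fin n → ℂ) (inv0 hM) x := by
  have h1 : inv0 hM x ∉ excSet (Fin n → ℂ) u := fun h => hx ⟨_, h, u_inv0 hM x⟩
  have h2 := holM_inv hM h1
  rwa [u_inv0 hM] at h2

theorem inv_notMem {x : X} (hx : x ∉ u '' excSet (Fin n → ℂ) u) :
    inv0 hM x ∉ excSet (Fin n → ℂ) u := fun h => hx ⟨_, h, u_inv0 hM x⟩

/-- `du ∘ d(u⁻¹) = 1` -/
theorem dM_u_inv {x : X} (hx : x ∉ u '' excSet (Fin n → ℂ) u) (ξ : Fin n → ℂ) :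
    dM (Fin n → ℂ) (Fin n → ℂ) u (inv0 hM x) (dM (Fin n → ℂ) (Fin n → ℂ) (inv0 hM) x ξ) = ξ := by
  have h1 := mfderiv_comp_apply x (g := u) (f := inv0 hM)
    ((hM.hol _).mdifferentiableAt (by simp)) ((holM_inv' hM hx).mdifferentiableAt (by simp)) ξ
  have h2 : u ∘ inv0 hM = id := funext fun y => u_inv0 hM y
  rw [h2, mfderiv_id] at h1
  exact h1.symm

/-- `d(u⁻¹) ∘ du = 1` -/
theorem dM_inv_u {z : X₁} (hz : z ∉ excSet (Fin n → ℂ) u) (ξ : Fin n → ℂ) :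
    dM (Fin n → ℂ) (Fin n → ℂ) (inv0 hM) (u z) (dM (Fin n → ℂ) (Fin n → ℂ) u z ξ) = ξ := by
  have h1 := mfderiv_comp_apply z (g := inv0 hM) (f := u)
    ((holM_inv hM hz).mdifferentiableAt (by simp)) ((hM.hol _).mdifferentiableAt (by simp)) ξ
  have h2 : (inv0 hM ∘ u) =ᶠ[𝓝 z] id := by
    filter_upwards [hM.eclosed.isOpen_compl.mem_nhds hz] with w hw
    exact inv0_u hM hw
  rw [h2.mfderiv_eq, mfderiv_id] at h1
  exact h1.symm

end inv

end Vale.Agent.P281.H152.SC
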