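import Vale.Agent.P281.H225.KC.Desc
import Vale.Agent.P281.H64.Gen.SpecN
import Mathlib.MeasureTheory.Function.Jacobian

/-!
# P281, T-SC (helper152), KC0: the exceptional locus is a null set in the fibres (from fibre charts)
-/

open Set Filter Metric MeasureTheory
open scoped Topology ContDiff Manifold ENNReal NNReal

set_option linter.unusedSectionVars false

noncomputable section

namespace Vale.Agent.P281.H152.SC

open Vale.Agent.P281 Vale.Agent.P281.MF Vale.Agent.P281.ISO Vale.Agent.P281.ELL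
open Vale.Agent.P281.H713 Vale.Agent.P281.H64.Gen
open Vale.Agent.P281.H64 (Cm)
open Vale.Agent.P281.H225.KC (exists_slice' fc_inj fc_near)

theorem det_zeroR {d : ℕ} {A : Cm d →L[ℂ] Cm d} {w : Cm d} (hw : w ≠ 0) (h : A w = 0) :
    (A.restrictScalars ℝ).det = 0 := by
  by_contra hne
  have h1 : IsUnit (LinearMap.det ((A.restrictScalars ℝ : Cm d →L[ℝ] Cm d) : Cm d →ₗ[ℝ] Cm d)) :=
    isUnit_iff_ne_zero.2 hne
  have h2 := (LinearMap.isUnit_iff_ker_eq_bot _).1 ((LinearMap.isUnit_iff_isUnit_det _).2 h1)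
  have h3 : w ∈ LinearMap.ker ((A.restrictScalars ℝ : Cm d →L[ℝ] Cm d) : Cm d →ₗ[ℝ] Cm d) := h
  rw [h2, Submodule.mem_bot] at h3
  exact hw h3

variable {n p d : ℕ} {X X₁ Y : Type} [TopologicalSpace X] [ChartedSpace (Cm n) X]
  [IsManifold 𝓘(ℂ, Cm n) ω X] [TopologicalSpace X₁] [ChartedSpace (Cm n) X₁]
  [IsManifold 𝓘(ℂ, Cm n) ω X₁] [TopologicalSpace Y] [ChartedSpace (Cm p) Y]
  [IsManifold 𝓘(ℂ, Cm p) ω Y] {f : X → Y} {u : X₁ → X}

/-- Sard's theorem for the exceptional points near `x₁` -/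
theorem sard_loc (hf : ∀ x, HolM (Cm n) (Cm p) f x) (hu : ∀ z, HolM (Cm n) (Cm n) u z)
    (e₀ : Cm n ≃L[ℂ] (Cm p × Cm d)) {x₁ : X₁} {ζ₁ : Fin d → X₁ → ℂ}
    (h₁ : IsFibreChart (Cm n) (Cm p) (fun z => f (u z)) ζ₁ x₁) {O : Set X} {ζ : X → Cm d}
    (hζ : ∀ x ∈ O, HolV (Cm n) ζ x) :
    ∃ V ∈ 𝓝 x₁, volume (ζ '' (u '' {z | z ∈ V ∧ f (u z) = f (u x₁) ∧ z ∈ excSet (Cm n) u ∧
      u z ∈ O})) = 0 := by
  have hf₁ : ∀ z, HolM (Cm n) (Cm p) (fun z => f (u z)) z := fun z =>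
    ContMDiffAt.comp (g := f) (f := u) z (hf _) (hu _)
  obtain ⟨q, hq, hq0, hqe, hqz⟩ := exists_slice' hf₁ e₀ (holV_vec h₁.1) (fc_inj h₁)
  have hqt : Tendsto q (𝓝 (vec ζ₁ x₁)) (𝓝 x₁) := by
    have := hq.continuousAt.tendsto
    rwa [hq0] at this
  have hq' : ∀ᶠ p' in 𝓝 (vec ζ₁ x₁), ContMDiffAt 𝓘(ℂ, Cm d) 𝓘(ℂ, Cm n) ω q p' :=
    (contMDiffAt_iff_contMDiffAt_nhds (by simp)).1 hq
  obtain ⟨r, hr, hball⟩ := Metric.eventually_nhds_iff_ball.1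
    ((hqe.and hqe.eventually_nhds).and (hq'.and (hqt.eventually (fc_near hf₁ e₀ h₁))))
  have hvc : Tendsto (vec ζ₁) (𝓝 x₁) (𝓝 (vec ζ₁ x₁)) := (holV_vec h₁.1).continuousAt.tendsto
  refine ⟨{z | (f (u z) = f (u x₁) → q (vec ζ₁ z) = z) ∧ vec ζ₁ z ∈ ball (vec ζ₁ x₁) r},
    (hqz.and (hvc.eventually (ball_mem_nhds _ hr))), ?_⟩
  set s : Set (Cm d) := {v | v ∈ ball (vec ζ₁ x₁) r ∧ q v ∈ excSet (Cm n) u ∧ u (q v) ∈ O} with hs
  refine measure_mono_null (t := (fun v => ζ (u (q v))) '' s) ?_ ?_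
  · rintro _ ⟨_, ⟨z, ⟨⟨hz1, hz2⟩, hz3, hz4, hz5⟩, rfl⟩, rfl⟩
    have h2 := hz1 hz3
    refine ⟨vec ζ₁ z, ⟨hz2, ?_, ?_⟩, ?_⟩
    · rw [h2]
      exact hz4
    · rw [h2]
      exact hz5
    · show ζ (u (q (vec ζ₁ z))) = ζ (u z)
      rw [h2]
  · have key : ∀ v ∈ s, DifferentiableAt ℂ (fun v => ζ (u (q v))) v ∧ ∃ η : Cm d, η ≠ 0 ∧
        fderiv ℂ (fun v => ζ (u (q v))) v η = 0 := by
      rintro v ⟨hv, hv1, hv2⟩
      obtain ⟨⟨b1, b2⟩, b3, b4⟩ := hball v hv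
      have hζu : HolV (Cm n) (fun z => ζ (u z)) (q v) := HolV.comp (h := ζ) (hζ _ hv2) (hu _)
      have h3 := slice_fderiv b3 hζu
      refine ⟨h3.1.differentiableAt (by simp), ?_⟩
      -- the kernel of `du`
      have k1 : ∃ ξ : Cm n, ξ ≠ 0 ∧ dM (Cm n) (Cm n) u (q v) ξ = 0 := by
        by_contra hcon
        push Not at hcon
        have h4 : Function.Injective (dM (Cm n) (Cm n) u (q v)) := by
          rw [injective_iff_map_eq_zero]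
          intro ξ hξ
          by_contra h5
          exact hcon ξ h5 hξ
        exact hv1 ⟨h4, (LinearMap.injective_iff_surjective
          (f := (dM (Cm n) (Cm n) u (q v) : Cm n →ₗ[ℂ] Cm n))).1 h4⟩
      obtain ⟨ξ, hξ0, hξ⟩ := k1
      have k2 : dM (Cm n) (Cm p) (fun z => f (u z)) (q v) ξ = 0 := by
        have h4 := mfderiv_comp_apply (q v) (g := f) (f := u)
          ((hf _).mdifferentiableAt (by simp)) ((hu _).mdifferentiableAt (by simp)) ξ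
        have h5 : dM (Cm n) (Cm p) (fun z => f (u z)) (q v) ξ =
            dM (Cm n) (Cm p) f (u (q v)) (dM (Cm n) (Cm n) u (q v) ξ) := h4
        rw [h5, hξ, map_zero]
      -- `ξ = dq w`
      have k3 : ∀ w, dM (Cm n) (Cm p) (fun z => f (u z)) (q v)
          (dM (Cm d) (Cm n) q v w) = 0 := fun w =>
        slice_ker hf₁ b3 (b2.mono fun z hz => by rw [hz.1, b1.1]) w
      have k4 : ∀ w, dV (Cm n) (vec ζ₁) (q v) (dM (Cm d) (Cm n) q v w) = w := by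
        intro w
        have h4 := (slice_fderiv b3 (holV_vec b4.1)).2
        have h5 : (fun z => vec ζ₁ (q z)) =ᶠ[𝓝 v] fun z => z := b2.mono fun z hz => hz.2
        rw [h5.fderiv_eq, fderiv_fun_id] at h4
        exact (congrArg (fun L : Cm d →L[ℂ] Cm d => L w) h4).symm
      set w := dV (Cm n) (vec ζ₁) (q v) ξ with hw
      have k5 : dM (Cm d) (Cm n) q v w = ξ := by
        have h4 := fc_inj b4 (dM (Cm d) (Cm n) q v w - ξ)
          (by rw [map_sub, k3, k2, sub_zero]) (by rw [map_sub, k4, hw, sub_self])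
        exact sub_eq_zero.1 h4
      refine ⟨w, fun h0 => hξ0 ?_, ?_⟩
      · rw [← k5, h0, map_zero]
      · rw [h3.2]
        have h4 := congrArg (fun L : Cm n →L[ℂ] Cm d => L ξ) (dV_comp (h := ζ) (hζ _ hv2) (hu (q v)))
        have h5 : dV (Cm n) (fun z => ζ (u z)) (q v) ξ = 0 := by
          refine h4.trans ?_
          show dV (Cm n) ζ (u (q v)) (dM (Cm n) (Cm n) u (q v) ξ) = 0
          rw [hξ, map_zero]
        show dV (Cm n) (fun z => ζ (u z)) (q v) (dM (Cm d) (Cm n) q v w) = 0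
        rw [k5]
        exact h5
    refine MeasureTheory.addHaar_image_eq_zero_of_det_fderivWithin_eq_zero volume
      (f' := fun z => (fderiv ℂ (fun v => ζ (u (q v))) z).restrictScalars ℝ)
      (fun z hz => ((key z hz).1.hasFDerivAt.restrictScalars ℝ).hasFDerivWithinAt) fun z hz => ?_
    obtain ⟨η, hη, h⟩ := (key z hz).2
    exact det_zeroR hη h

/-- Sard's theorem for the exceptional points over `y` -/
theorem sard_glob [CompactSpace X₁] [T1Space Y] (hf : ∀ x, HolM (Cm n) (Cm p) f x)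
    (hu : ∀ z, HolM (Cm n) (Cm n) u z) (e₀ : Cm n ≃L[ℂ] (Cm p × Cm d)) {y : Y}
    (h₁ : ∀ x₁, f (u x₁) = y → ∃ ζ₁ : Fin d → X₁ → ℂ,
      IsFibreChart (Cm n) (Cm p) (fun z => f (u z)) ζ₁ x₁) {O : Set X} {ζ : X → Cm d}
    (hζ : ∀ x ∈ O, HolV (Cm n) ζ x) :
    volume (ζ '' (u '' {z | f (u z) = y ∧ z ∈ excSet (Cm n) u ∧ u z ∈ O})) = 0 := by
  have hcf : Continuous fun z => f (u z) := continuous_iff_continuousAt.2 fun z =>
    ContMDiffAt.continuousAt (ContMDiffAt.comp (g := f) (f := u) z (hf _) (hu _))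
  have hK : IsCompact ((fun z => f (u z)) ⁻¹' {y}) := (isClosed_singleton.preimage hcf).isCompact
  have hV : ∀ x₁ ∈ (fun z => f (u z)) ⁻¹' {y}, ∃ V ∈ 𝓝 x₁, volume (ζ '' (u '' {z | z ∈ V ∧
      f (u z) = y ∧ z ∈ excSet (Cm n) u ∧ u z ∈ O})) = 0 := by
    intro x₁ hx₁
    obtain ⟨ζ₁, h⟩ := h₁ x₁ hx₁
    have h2 := sard_loc hf hu e₀ h hζ
    rwa [show f (u x₁) = y from hx₁] at h2
  choose! V hV hV0 using hV
  obtain ⟨t, ht, hcov⟩ := hK.elim_nhds_subcover V hV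
  refine measure_mono_null (t := ⋃ x ∈ t, ζ '' (u '' {z | z ∈ V x ∧ f (u z) = y ∧
    z ∈ excSet (Cm n) u ∧ u z ∈ O})) ?_ ((measure_biUnion_null_iff t.countable_toSet).2
      fun x hx => hV0 x (ht x hx))
  rintro _ ⟨_, ⟨z, ⟨hz1, hz2, hz3⟩, rfl⟩, rfl⟩
  obtain ⟨x, hx, hzx⟩ := mem_iUnion₂.1 (hcov hz1)
  exact mem_iUnion₂.2 ⟨x, hx, _, ⟨_, ⟨hzx, hz1, hz2, hz3⟩, rfl⟩, rfl⟩

/-- **KC0** -/
theorem null_slice0 [CompactSpace X₁] [T1Space Y] (hf : ∀ x, HolM (Cm n) (Cm p) f x)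
    (hu : ∀ z, HolM (Cm n) (Cm n) u z) (e₀ : Cm n ≃L[ℂ] (Cm p × Cm d)) {S : Set Y}
    (hchart : ∀ x, f x ∉ S → ∃ ζ : Fin d → X → ℂ, IsFibreChart (Cm n) (Cm p) f ζ x)
    (h₁ : ∀ x₁, f (u x₁) ∉ S → ∃ ζ₁ : Fin d → X₁ → ℂ,
      IsFibreChart (Cm n) (Cm p) (fun z => f (u z)) ζ₁ x₁)
    (q : Cm d → X) (v₀ : Cm d) (r : ℝ) (hq : IsPolydisc (Cm n) f q v₀ r) (hqS : f (q v₀) ∉ S) :
    volume {v | v ∈ ball v₀ r ∧ q v ∈ u '' excSet (Cm n) u ∧
      ∀ ξ, mfderiv 𝓘(ℂ, Cm d) 𝓘(ℂ, Cm n) q v ξ = 0 → ξ = 0} = 0 := by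
  refine measure_null_of_locally_null _ fun v hv => ?_
  obtain ⟨hvb, -, himm⟩ := hv
  have hqv : f (q v) = f (q v₀) := hq.2.2 v hvb
  obtain ⟨ζ, hζ⟩ := hchart (q v) (by rw [hqv]; exact hqS)
  have hqc : ContMDiffAt 𝓘(ℂ, Cm d) 𝓘(ℂ, Cm n) ω q v := hq.1 v hvb
  have hfq : ∀ᶠ z in 𝓝 v, f (q z) = f (q v) := by
    filter_upwards [isOpen_ball.mem_nhds hvb] with z hz
    rw [hq.2.2 z hz, hqv]
  -- the local coordinate
  obtain ⟨hθc, hθd⟩ := slice_fderiv hqc (holV_vec hζ.1)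
  set θ : Cm d → Cm d := fun z => vec ζ (q z) with hθ
  have hinj : Function.Injective (fderiv ℂ θ v) := by
    rw [injective_iff_map_eq_zero]
    intro w hw
    rw [hθd] at hw
    have h2 : dV (Cm n) (vec ζ) (q v) (dM (Cm d) (Cm n) q v w) = 0 := hw
    exact himm w (fc_inj hζ _ (slice_ker hf hqc hfq w) h2)
  let L : Cm d ≃L[ℂ] Cm d := (LinearEquiv.ofBijective (fderiv ℂ θ v : Cm d →ₗ[ℂ] Cm d)
    ⟨hinj, (LinearMap.injective_iff_surjective (f := (fderiv ℂ θ v : Cm d →ₗ[ℂ] Cm d))).1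
      hinj⟩).toContinuousLinearEquiv
  have hL : (L : Cm d →L[ℂ] Cm d) = fderiv ℂ θ v := by
    ext v : 1
    rfl
  have hθL : HasFDerivAt θ (L : Cm d →L[ℂ] Cm d) v := by
    rw [hL]
    exact (hθc.differentiableAt (by simp)).hasFDerivAt
  have hn : (ω : WithTop ℕ∞) ≠ 0 := by simp
  set κ := hθc.localInverse hθL hn with hκ
  have hκc : ContDiffAt ℂ ω κ (θ v) := hθc.to_localInverse hθL hn
  have hstr : HasStrictFDerivAt θ (L : Cm d →L[ℂ] Cm d) v := hθc.hasStrictFDerivAt' hθL hn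
  have hκl : ∀ᶠ z in 𝓝 v, κ (θ z) = z := hstr.eventually_left_inverse
  have hκd : ∀ᶠ z in 𝓝 (θ v), DifferentiableAt ℂ κ z :=
    (hκc.eventually (by simp)).mono fun z hz => hz.differentiableAt (by simp)
  have hθt : Tendsto θ (𝓝 v) (𝓝 (θ v)) := hθc.continuousAt.tendsto
  -- an open set of holomorphy
  obtain ⟨O, hO, hOo, hqO⟩ := mem_nhds_iff.1 (holV_vec hζ.1).eventually
  have hqO' : ∀ᶠ z in 𝓝 v, q z ∈ O := hqc.continuousAt.eventually (hOo.mem_nhds hqO)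
  have hnull := sard_glob (ζ := vec ζ) hf hu e₀ (y := f (q v₀)) (fun x₁ hx₁ => h₁ x₁ (by
    rw [hx₁]; exact hqS)) (O := O) (fun x hx => hO hx)
  set A : Set (Cm d) := {z | DifferentiableAt ℂ κ z} ∩ vec ζ '' (u '' {z | f (u z) = f (q v₀) ∧
    z ∈ excSet (Cm n) u ∧ u z ∈ O}) with hA
  refine ⟨_, inter_mem_nhdsWithin _ (hκl.and ((hθt.eventually hκd).and hqO')),
    measure_mono_null (t := κ '' A) ?_ ?_⟩
  · rintro z ⟨⟨hzb, ⟨z₁, hz₁, hzu⟩, -⟩, hz2, hz3, hz4⟩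
    refine ⟨θ z, ⟨hz3, q z, ⟨z₁, ⟨?_, hz₁, ?_⟩, hzu⟩, rfl⟩, hz2⟩
    · rw [hzu]
      exact hq.2.2 z hzb
    · rw [hzu]
      exact hz4
  · refine MeasureTheory.addHaar_image_eq_zero_of_differentiableOn_of_addHaar_eq_zero volume
      (fun z hz => ?_) (measure_mono_null inter_subset_right hnull)
    exact (DifferentiableAt.restrictScalars ℝ hz.1).differentiableWithinAt

end Vale.Agent.P281.H152.SC
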